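import Vale.Agent.P287.H631.OddN.Count

/-!
Block [N]: the dimension of `N' = X / (X ∩ M' + P)` is finite and odd.
-/

namespace Vale.Agent.P287.H631.OddN

open Polynomial Matrix Module Vale.Agent.P287.Odd Vale.Agent.P287.H684 Vale.Agent.P287.H946

lemma chain_top {k V : Type*} [Field k] [AddCommGroup V] [Module k V] (W : ℕ → Submodule k V)
    (hW : Monotone W) (hfin : ∀ d, Module.Finite k (W d)) (hex : ∀ v, ∃ d, v ∈ W d) (B : ℕ)
    (hB : ∀ d, finrank k (W d) ≤ B) : ∃ d₀, ∀ d ≥ d₀, W d = ⊤ := by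
  set s : Set ℕ := Set.range fun d => finrank k (W d) with hs
  have hne : s.Nonempty := ⟨_, 0, rfl⟩
  have hbd : BddAbove s := ⟨B, by rintro _ ⟨d, rfl⟩; exact hB d⟩
  obtain ⟨d₀, hd₀⟩ := Nat.sSup_mem hne hbd
  have hmax : ∀ d, finrank k (W d) ≤ finrank k (W d₀) := fun d => by
    have h1 : finrank k (W d) ≤ sSup s := le_csSup hbd ⟨d, rfl⟩
    rwa [← hd₀] at h1
  have heq : ∀ d ≥ d₀, W d = W d₀ := by
    intro d hd
    have := hfin d
    exact (Submodule.eq_of_le_of_finrank_le (hW hd) (hmax d)).symm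
  have htop : W d₀ = ⊤ := by
    rw [eq_top_iff]
    intro v _
    obtain ⟨d, hd⟩ := hex v
    have h1 := hW (le_max_left d d₀) hd
    rwa [heq _ (le_max_right d d₀)] at h1
  exact ⟨d₀, fun d hd => (heq d hd).trans htop⟩

variable {k : Type} [Field k]

/-- the class of a reduced vector -/
noncomputable def cls (n d : ℕ) (Y L : Submodule k[X][X] (Fin 4 → k[X][X])) :
    Yd n d Y →ₗ[k] Nq Y L where
  toFun v := Submodule.Quotient.mk ⟨v, (mem_Yd.1 v.2).1⟩
  map_add' _ _ := rfl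
  map_smul' _ _ := rfl

lemma cls_eq_zero {n d : ℕ} {Y L : Submodule k[X][X] (Fin 4 → k[X][X])} (v : Yd n d Y) :
    cls n d Y L v = 0 ↔ (v : Fin 4 → k[X][X]) ∈ L := by
  change Submodule.Quotient.mk _ = 0 ↔ _
  rw [Submodule.Quotient.mk_eq_zero]
  rfl

lemma finrank_range_cls {n d : ℕ} {Y L : Submodule k[X][X] (Fin 4 → k[X][X])} (hLY : L ≤ Y) :
    finrank k (LinearMap.range (cls n d Y L)) + finrank k (Yd n d L) = finrank k (Yd n d Y) := by
  have h1 := LinearMap.finrank_range_add_finrank_ker (K := k) (V := Yd n d Y) (V₂ := Nq Y L)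
    (cls n d Y L)
  have h2 : LinearMap.ker (cls n d Y L) = (Yd n d L).comap (Yd n d Y).subtype := by
    ext v
    rw [LinearMap.mem_ker, cls_eq_zero, Submodule.mem_comap, mem_Yd]
    exact ⟨fun h => ⟨h, (mem_Yd.1 v.2).2⟩, fun h => h.1⟩
  rw [h2, (Submodule.comapSubtypeEquivOfLe (Yd_mono hLY)).finrank_eq] at h1
  exact h1

lemma Yd_le {n d d' : ℕ} (h : d ≤ d') (Y : Submodule k[X][X] (Fin 4 → k[X][X])) :
    Yd n d Y ≤ Yd n d' Y := by
  intro v hv
  rw [mem_Yd] at hv ⊢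
  exact ⟨hv.1, fun i => ⟨Wd.mono' (hv.2 i).1 (by omega), (hv.2 i).2⟩⟩

lemma range_cls_mono {n : ℕ} {Y L : Submodule k[X][X] (Fin 4 → k[X][X])} :
    Monotone fun d => LinearMap.range (cls n d Y L) := by
  intro d d' h
  rintro _ ⟨v, rfl⟩
  exact ⟨⟨v, Yd_le h Y v.2⟩, rfl⟩

lemma range_cls_exhaust {n : ℕ} {g : k[X][X]} (hg : g.Monic) (hgn : g.natDegree = n)
    {Y L : Submodule k[X][X] (Fin 4 → k[X][X])} (hL : ∀ v : Fin 4 → k[X][X], g • v ∈ L)
    (hLY : L ≤ Y) (u : Nq Y L) : ∃ d, u ∈ LinearMap.range (cls n d Y L) := by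
  obtain ⟨⟨v, hv⟩, rfl⟩ := Submodule.Quotient.mk_surjective _ u
  choose d hd using fun i => exists_wd (redv g v i)
  refine ⟨∑ i, d i, ⟨redv g v, mem_Yd.2 ⟨redv_mem (fun w => hLY (hL w)) hv, fun i => ⟨?_,
    red_modByMonic hg hgn _⟩⟩⟩, ?_⟩
  · refine Wd.mono' (hd i) ?_
    have : d i ≤ ∑ i, d i := Finset.single_le_sum (fun _ _ => Nat.zero_le _) (Finset.mem_univ i)
    omega
  · change Submodule.Quotient.mk _ = Submodule.Quotient.mk _
    rw [Submodule.Quotient.eq]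
    change redv g v - v ∈ L
    have h1 := sub_redv_mem hL v
    have h2 := L.neg_mem h1
    rwa [neg_sub] at h2

/-- [N] from [M] -/
theorem stmtN (hM : StmtM) : StmtN := by
  intro k _ _ m hm g f A J x ν dν hC hJ hQ hI hev
  obtain ⟨e₀, he₀⟩ := hM k m hm g f A J x ν dν hC hJ hQ hI
  set Y := modX A J with hY
  set L := (modX A J ⊓ modM g A ν) ⊔ modP g A J (cx x) with hL
  have hLY : L ≤ Y := sup_le inf_le_left (modP_le hQ.det hJ.f_mem hJ.g_mem)
  have hgL : ∀ v : Fin 4 → k[X][X], g • v ∈ L :=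
    fun v => Submodule.mem_sup_right (smul_mem_modP hJ.g_mem v)
  obtain ⟨e, he⟩ := finrank_X_le hC hJ hQ hI
  set W : ℕ → Submodule k (Nq Y L) := fun d => LinearMap.range (cls (2 * m + 1) d Y L) with hW
  have hbound : ∀ d, finrank k (W d) ≤ 4 * (2 * m + 1) * e := by
    intro d
    have h1 : W d ≤ W (m - 1 + (e₀ + d) + e) := range_cls_mono (by omega)
    have h2 := Submodule.finrank_mono h1
    refine h2.trans ?_
    have h3 := finrank_range_cls (n := 2 * m + 1) (d := m - 1 + (e₀ + d) + e) hLY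
    have h4 := he (m - 1 + (e₀ + d))
    have h5 := (he₀ (e₀ + d) (by omega)).1
    have h6 := (he₀ (e₀ + d + e) (by omega)).1
    change finrank k (Yd (2 * m + 1) (m - 1 + (e₀ + d)) Y) ≤
      finrank k (Yd (2 * m + 1) (m - 1 + (e₀ + d) + e) L) at h4
    rw [← add_assoc (m - 1) (e₀ + d) e] at h6
    rw [h5] at h4
    rw [h6] at h3
    change finrank k (LinearMap.range (cls (2 * m + 1) (m - 1 + (e₀ + d) + e) Y L)) ≤ _
    have h7 : 4 * (2 * m + 1) * (e₀ + d + e) = 4 * (2 * m + 1) * (e₀ + d) +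
        4 * (2 * m + 1) * e := by ring
    omega
  obtain ⟨d₀, hd₀⟩ := chain_top W range_cls_mono (fun d => inferInstance)
    (range_cls_exhaust hC.monic hC.deg hgL hLY) _ hbound
  set e₁ := max (e₀ + d₀) (m + 2) with he₁
  have hW1 := hd₀ (m - 1 + e₁) (by omega)
  have hfinN : Module.Finite k (Nq Y L) := by
    have h1 : Module.Finite k (⊤ : Submodule k (Nq Y L)) := by
      rw [← hW1]
      infer_instance
    exact Module.Finite.equiv Submodule.topEquiv
  refine ⟨hfinN, ?_⟩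
  have h0 : finrank k (Nq Y L) = finrank k (W (m - 1 + e₁)) := by
    rw [hW1, finrank_top]
  rw [h0]
  have h1 := finrank_range_cls (n := 2 * m + 1) (d := m - 1 + e₁) hLY
  obtain ⟨h2, h3⟩ := he₀ e₁ (by omega)
  have h4 := finrank_sup hC hJ hQ hI (d := m - 1 + e₁) (by omega)
  have h5 := finrank_P (J := J) hC hQ hI (d := m - 1 + e₁) (by omega)
  have h6 := finrank_J hJ hQ (e := e₁) (by omega) hm h2
  have h7 := two_mul_finrank_En (k := k) (n := 2 * m + 1) (d := m - 1 + e₁ + 3) (by omega)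
  have h8 := two_mul_finrank_En (k := k) (n := 2 * m + 1) (d := m - 1 + e₁ - 1) (by omega)
  have h4' : finrank k (Yd (2 * m + 1) (m - 1 + e₁) L) =
      finrank k (Yd (2 * m + 1) (m - 1 + e₁) (modX A J ⊓ modM g A ν)) +
      finrank k (Yd (2 * m + 1) (m - 1 + e₁) (modP g A J (cx x))) := h4
  rw [h2, h4'] at h1
  have h9 : Even (finrank k (Yd (2 * m + 1) (m - 1 + e₁) (modX A J ⊓ modM g A ν))) := by
    rw [Nat.even_add] at h3
    exact h3.2 hev
  obtain ⟨D, hD⟩ : ∃ D, m - 1 + e₁ = D + 1 := ⟨m - 1 + e₁ - 1, by omega⟩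
  rw [hD] at h1 h5 h6 h7 h8 h9 ⊢
  rw [Nat.add_sub_cancel] at h5 h8
  set w := finrank k (W (D + 1))
  change w + _ = _ at h1
  set a := finrank k (Yd (2 * m + 1) (D + 1) (modX A J ⊓ modM g A ν))
  set p := finrank k (Yd (2 * m + 1) (D + 1) (modP g A J (cx x)))
  set j := finrank k ↥(J.restrictScalars k ⊓ En (2 * m + 1) (D + 1 + 3) :
    Submodule k k[X][X])
  set b := finrank k (En (2 * m + 1) (D + 1 + 3) : Submodule k k[X][X])
  set c := finrank k (En (2 * m + 1) D : Submodule k k[X][X])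
  have hp : Odd p := by
    have e1 : p + 3 * (2 * m + 1) + (2 * m + 1) * (2 * m + 1) = (2 * m + 1) * (2 * D + 7) := by
      have e2 : 2 * (p + 3 * (2 * m + 1) + (2 * m + 1) * (2 * m + 1)) =
          2 * ((2 * m + 1) * (2 * D + 7)) := by
        rw [h5]
        linear_combination 2 * h6 + h7 + h8
      omega
    have e3 : Odd ((2 * m + 1) * (2 * D + 7)) := Odd.mul ⟨m, rfl⟩ ⟨D + 3, by ring⟩
    rw [← e1] at e3
    have e4 : Even (3 * (2 * m + 1) + (2 * m + 1) * (2 * m + 1)) := ⟨(2 * m + 1) * (m + 2), by ring⟩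
    rw [add_assoc, Nat.odd_add] at e3
    exact e3.2 e4
  have hev4 : Even (w + (a + p)) := by
    rw [h1]
    exact ⟨2 * (2 * m + 1) * e₁, by ring⟩
  rw [Nat.even_add] at hev4
  have h10 : Odd (a + p) := h9.add_odd hp
  rw [← Nat.not_even_iff_odd] at h10 ⊢
  exact fun h => h10 (hev4.1 h)

end Vale.Agent.P287.H631.OddN
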