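import Vale.Agent.P287.H946.CodimC

/-!
Reduction modulo `g`, degrees, and the decomposition of the reduced vectors of `X ∩ M' + P`.
-/

namespace Vale.Agent.P287.H631.OddN

open Polynomial Matrix Module Vale.Agent.P287.Odd Vale.Agent.P287.H684

variable {k : Type} [Field k]

lemma wd_iff {d : ℕ} {P : k[X][X]} : Wd d P ↔ TW d P := TW_iff.symm

lemma Wd.mono' {d e : ℕ} {P : k[X][X]} (h : Wd d P) (hde : d ≤ e) : Wd e P :=
  wd_iff.2 ((wd_iff.1 h).mono hde)

lemma Wd.add' {d : ℕ} {P Q : k[X][X]} (hP : Wd d P) (hQ : Wd d Q) : Wd d (P + Q) :=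
  wd_iff.2 ((wd_iff.1 hP).add (wd_iff.1 hQ))

lemma Wd.sub' {d : ℕ} {P Q : k[X][X]} (hP : Wd d P) (hQ : Wd d Q) : Wd d (P - Q) :=
  wd_iff.2 ((wd_iff.1 hP).sub (wd_iff.1 hQ))

lemma Wd.mul' {d e : ℕ} {P Q : k[X][X]} (hP : Wd d P) (hQ : Wd e Q) : Wd (d + e) (P * Q) :=
  wd_iff.2 ((wd_iff.1 hP).mul (wd_iff.1 hQ))

lemma Wd.mul_of_eq {d e l : ℕ} {P Q : k[X][X]} (hP : Wd d P) (hQ : Wd e Q) (h : d + e = l) :
    Wd l (P * Q) := h ▸ Wd.mul' hP hQ

lemma wd_CC (d : ℕ) (c : k) : Wd d (C (C c) : k[X][X]) := wd_iff.2 (TW_CC d c)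

lemma exists_wd (P : k[X][X]) : ∃ d, Wd d P := by
  refine ⟨P.natDegree + ∑ j ∈ Finset.range (P.natDegree + 1), (P.coeff j).natDegree, ?_⟩
  intro i j hij
  by_cases hj : P.natDegree < j
  · rw [coeff_eq_zero_of_natDegree_lt hj, coeff_zero]
  · refine coeff_eq_zero_of_natDegree_lt ?_
    have h1 : (P.coeff j).natDegree ≤
        ∑ j ∈ Finset.range (P.natDegree + 1), (P.coeff j).natDegree :=
      Finset.single_le_sum (f := fun j => (P.coeff j).natDegree) (fun _ _ => Nat.zero_le _)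
        (Finset.mem_range.2 (by omega))
    omega

/-- reduced polynomials -/
def Red (n : ℕ) (P : k[X][X]) : Prop := ∀ j, n ≤ j → P.coeff j = 0

lemma mem_En {n d : ℕ} {P : k[X][X]} : P ∈ En n d ↔ Wd d P ∧ Red n P := Iff.rfl

section red

variable {n : ℕ} {g : k[X][X]}

lemma red_modByMonic (hg : g.Monic) (hgn : g.natDegree = n) (P : k[X][X]) : Red n (P %ₘ g) := by
  intro j hj
  by_cases hg1 : g = 1
  · rw [hg1, modByMonic_one, coeff_zero]
  refine coeff_eq_zero_of_natDegree_lt ?_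
  have := natDegree_modByMonic_lt P hg hg1
  omega

lemma Red.degree_lt (hg : g.Monic) (hgn : g.natDegree = n) {P : k[X][X]} (h : Red n P) :
    P.degree < g.degree := by
  rw [degree_eq_natDegree hg.ne_zero, hgn, degree_lt_iff_coeff_zero]
  intro j hj
  exact h j hj

lemma Red.modByMonic (hg : g.Monic) (hgn : g.natDegree = n) {P : k[X][X]} (h : Red n P) :
    P %ₘ g = P := (modByMonic_eq_self_iff hg).2 (h.degree_lt hg hgn)

lemma Red.eq_zero (hg : g.Monic) (hgn : g.natDegree = n) {P : k[X][X]} (h : Red n P)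
    (hd : g ∣ P) : P = 0 := by
  rw [← h.modByMonic hg hgn]
  exact (modByMonic_eq_zero_iff_dvd hg).2 hd

lemma Red.eq (hg : g.Monic) (hgn : g.natDegree = n) {P Q : k[X][X]} (h : Red n P)
    (h' : Red n Q) (hd : g ∣ P - Q) : P = Q := by
  rw [← sub_eq_zero]
  refine Red.eq_zero hg hgn (fun j hj => ?_) hd
  rw [coeff_sub, h j hj, h' j hj, sub_zero]

lemma wd_modByMonic (hg : g.Monic) (hgn : g.natDegree = n) (hgW : Wd n g) {d : ℕ} {P : k[X][X]}
    (h : Wd d P) : Wd d (P %ₘ g) :=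
  wd_iff.2 (TW.modByMonic hg hgn (wd_iff.1 hgW) (wd_iff.1 h))

lemma dvd_sub_modByMonic (g P : k[X][X]) : g ∣ P - P %ₘ g :=
  ⟨P /ₘ g, by have := modByMonic_add_div P g; linear_combination -this⟩

lemma modByMonic_eq_of_dvd (hg : g.Monic) {P Q : k[X][X]} (h : g ∣ P - Q) : P %ₘ g = Q %ₘ g := by
  rw [← sub_eq_zero, ← sub_modByMonic]
  exact (modByMonic_eq_zero_iff_dvd hg).2 h

/-- `InfUnit` for an arbitrary representative -/
lemma InfUnit.wd_of (hg : g.Monic) (hgn : g.natDegree = n) (hgW : Wd n g) {d e : ℕ}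
    {z h P : k[X][X]} (hz : InfUnit n g d z) (hh : Red n h) (hP : Wd (e + d) P)
    (hd : g ∣ z * h - P) : Wd e h := by
  refine hz.2 e h hh ?_
  rw [modByMonic_eq_of_dvd hg hd]
  exact wd_modByMonic hg hgn hgW hP

lemma InfUnit.not_dvd (hg : g.Monic) (hn : 1 ≤ n) {d : ℕ} {z : k[X][X]}
    (hz : InfUnit n g d z) : ¬ g ∣ z := by
  intro h
  have h1 := hz.2 0 (C X) (fun j hj => by rw [coeff_C, if_neg (by omega)]) (by
    rw [(modByMonic_eq_zero_iff_dvd hg).2 (h.mul_right _)]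
    intro i j _
    simp)
  have h2 := h1 1 0 (by norm_num)
  rw [coeff_C_zero, coeff_X_one] at h2
  exact one_ne_zero h2

/-- reduction of vectors -/
noncomputable def redv (g : k[X][X]) (v : Fin 4 → k[X][X]) : Fin 4 → k[X][X] :=
  fun i => v i %ₘ g

lemma redv_add (v w : Fin 4 → k[X][X]) : redv g (v + w) = redv g v + redv g w := by
  funext i
  exact add_modByMonic _ _

lemma redv_mem {Y : Submodule k[X][X] (Fin 4 → k[X][X])} (hY : ∀ v : Fin 4 → k[X][X], g • v ∈ Y)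
    {v : Fin 4 → k[X][X]} (hv : v ∈ Y) : redv g v ∈ Y := by
  have h1 : redv g v = v - g • (fun i => v i /ₘ g) := by
    funext i
    have := modByMonic_add_div (v i) g
    simp only [redv, Pi.sub_apply, Pi.smul_apply, smul_eq_mul]
    linear_combination this
  rw [h1]
  exact Y.sub_mem hv (hY _)

lemma sub_redv_mem {Y : Submodule k[X][X] (Fin 4 → k[X][X])}
    (hY : ∀ v : Fin 4 → k[X][X], g • v ∈ Y) (v : Fin 4 → k[X][X]) : v - redv g v ∈ Y := by
  have h1 : v - redv g v = g • (fun i => v i /ₘ g) := by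
    funext i
    have := modByMonic_add_div (v i) g
    simp only [redv, Pi.sub_apply, Pi.smul_apply, smul_eq_mul]
    linear_combination -this
  rw [h1]
  exact hY _

end red

section mods

variable {R : Type} [CommRing R] {A : Matrix (Fin 3) (Fin 3) R} {J : Ideal R} {g f : R}
  {x ν : Fin 3 → R}

lemma mem_modX {v : Fin 4 → R} :
    v ∈ modX A J ↔ v 0 ∈ J ∧ ∀ i, (A.adjugate *ᵥ av v) i ∈ J := Iff.rfl

lemma mem_modM {v : Fin 4 → R} : v ∈ modM g A ν ↔ g ∣ av v ⬝ᵥ ν ∧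
    ∀ i, g ∣ (crossProduct (av v) (A *ᵥ ν) - v 0 • ν) i := Iff.rfl

lemma mem_modP {v : Fin 4 → R} : v ∈ modP g A J x ↔
    v 0 ∈ J ∧ ∃ β : R, ∀ i : Fin 3, g ∣ (av v - β • (A *ᵥ x)) i := Iff.rfl

lemma smul_mem_modX {c : R} (hc : c ∈ J) (v : Fin 4 → R) : c • v ∈ modX A J := by
  refine ⟨J.mul_mem_right _ hc, fun i => ?_⟩
  rw [av_smul, mulVec_smul]
  exact J.mul_mem_right _ hc

lemma smul_mem_modM (v : Fin 4 → R) : g • v ∈ modM g A ν := by
  refine ⟨?_, fun i => ?_⟩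
  · rw [av_smul, smul_dotProduct]
    exact dvd_mul_right _ _
  · have h2 : (crossProduct (av (g • v)) (A *ᵥ ν) - (g • v) 0 • ν) i =
        g * (crossProduct (av v) (A *ᵥ ν) - v 0 • ν) i := by
      rw [av_smul, map_smul, LinearMap.smul_apply]
      simp only [Pi.sub_apply, Pi.smul_apply, smul_eq_mul]
      ring
    rw [h2]
    exact dvd_mul_right _ _

lemma smul_mem_modP (hg : g ∈ J) (v : Fin 4 → R) : g • v ∈ modP g A J x := by
  refine ⟨J.mul_mem_right _ hg, 0, fun i => ?_⟩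
  rw [zero_smul, sub_zero]
  exact dvd_mul_right _ _

/-- `P ≤ X` -/
lemma modP_le (hdet : A.det = -f) (hf : f ∈ J) (hg : g ∈ J) : modP g A J x ≤ modX A J := by
  rintro v ⟨hv, β, hβ⟩
  refine ⟨hv, fun i => ?_⟩
  choose w hw using hβ
  have h1 : av v = β • (A *ᵥ x) + g • w := by
    funext i
    have := hw i
    simp only [Pi.sub_apply, Pi.add_apply, Pi.smul_apply, smul_eq_mul] at this ⊢
    linear_combination this
  rw [h1, mulVec_add, mulVec_smul, mulVec_smul, mulVec_mulVec, adjugate_mul, hdet,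
    smul_mulVec, one_mulVec]
  simp only [Pi.add_apply, Pi.smul_apply, smul_eq_mul]
  refine J.add_mem (J.mul_mem_left _ (J.mul_mem_right _ (J.neg_mem hf))) (J.mul_mem_right _ hg)

/-- the symmetric bilinear form -/
lemma dot_comm (hA : A.IsSymm) (x y : Fin 3 → R) : (A *ᵥ x) ⬝ᵥ y = x ⬝ᵥ (A *ᵥ y) := by
  rw [Matrix.dotProduct_mulVec, ← Matrix.mulVec_transpose, hA.eq]

end mods

end Vale.Agent.P287.H631.OddN
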