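import Vale.Agent.P287.H631.OddN.Split

/-!
Dimensions: the part `P`, and a multiplier from `X` to `X ∩ M' + P`.
-/

namespace Vale.Agent.P287.H631.OddN

open Polynomial Matrix Module Vale.Agent.P287.Odd Vale.Agent.P287.H684 Vale.Agent.P287.H946

lemma cross_id {R : Type} [CommRing R] (a l x ν : Fin 3 → R) (i : Fin 3) :
    (x ⬝ᵥ ν) * crossProduct a l i - (x ⬝ᵥ crossProduct a l) * ν i =
      (a ⬝ᵥ ν) * crossProduct x l i - (l ⬝ᵥ ν) * crossProduct x a i := by
  simp only [cross_apply, dotProduct, Fin.sum_univ_three]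
  fin_cases i
  · simp; ring
  · simp; ring
  · simp; ring

variable {k : Type} [Field k] {m : ℕ} {g f : k[X][X]} {A : Matrix (Fin 3) (Fin 3) k[X][X]}
  {J : Ideal k[X][X]} {x : Fin 3 → k} {ν : Fin 3 → k[X][X]} {dν : ℕ}

/-- parametrisation of `P` -/
noncomputable def parP (g : k[X][X]) (A : Matrix (Fin 3) (Fin 3) k[X][X]) (x : Fin 3 → k) :
    (k[X][X] × k[X][X]) →ₗ[k] (Fin 4 → k[X][X]) :=
  LinearMap.pi fun i => Fin.cases (LinearMap.fst k _ _)
    (fun j => ((modByMonicHom g).restrictScalars k) ∘ₗ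
      (LinearMap.mulRight k ((A *ᵥ cx x) j)) ∘ₗ LinearMap.snd k _ _) i

lemma parP_zero (p : k[X][X] × k[X][X]) : parP g A x p 0 = p.1 := rfl

lemma parP_succ (p : k[X][X] × k[X][X]) (j : Fin 3) :
    parP g A x p j.succ = (p.2 * (A *ᵥ cx x) j) %ₘ g := rfl

lemma wd_Ax (hQ : Quadrics g f A) (i : Fin 3) : Wd 2 ((A *ᵥ cx x) i) := by
  have := wd_mulVec hQ.wd (wd_cx x) i
  exact this

/-- the dimension of `P_d` -/
theorem finrank_P (hC : Curve m g f) (hQ : Quadrics g f A)
    (hI : Iso m g A x ν dν) {d : ℕ} (hd : 1 ≤ d) :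
    finrank k (Yd (2 * m + 1) d (modP g A J (cx x))) =
      finrank k ↥(J.restrictScalars k ⊓ En (2 * m + 1) (d + 3) : Submodule k k[X][X]) +
        finrank k (En (2 * m + 1) (d - 1) : Submodule k k[X][X]) := by
  have hg := hC.monic
  have hgn := hC.deg
  set S1 : Submodule k k[X][X] := J.restrictScalars k ⊓ En (2 * m + 1) (d + 3) with hS1
  set S2 : Submodule k k[X][X] := En (2 * m + 1) (d - 1) with hS2
  let φ : (S1 × S2) →ₗ[k] (Fin 4 → k[X][X]) :=
    (parP g A x) ∘ₗ (LinearMap.prodMap S1.subtype S2.subtype)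
  have hφ : ∀ p, φ p = parP g A x (p.1, p.2) := fun p => rfl
  have hinj : Function.Injective φ := by
    rw [injective_iff_map_eq_zero]
    rintro ⟨⟨c, hc⟩, ⟨β, hβ⟩⟩ h0
    rw [hφ] at h0
    have hc0 : c = 0 := congrFun h0 0
    have hβ0 : ∀ j, g ∣ β * (A *ᵥ cx x) j := by
      intro j
      have h1 := congrFun h0 j.succ
      rw [parP_succ] at h1
      exact (modByMonic_eq_zero_iff_dvd hg).1 h1
    have h2 : g ∣ β * (cx x ⬝ᵥ (A *ᵥ ν)) := by
      have h3 : g ∣ (β • (A *ᵥ cx x)) ⬝ᵥ ν := dvd_dot hβ0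
      rwa [smul_dotProduct, dot_comm hQ.symm, smul_eq_mul] at h3
    have h3 := (hC.prime.dvd_or_dvd h2).resolve_right
      (InfUnit.not_dvd hg (by omega) hI.inf')
    have h4 : β = 0 := Red.eq_zero hg hgn hβ.2 h3
    subst hc0 h4
    rfl
  have hrange : LinearMap.range φ = Yd (2 * m + 1) d (modP g A J (cx x)) := by
    apply le_antisymm
    · rintro _ ⟨⟨⟨c, hc⟩, ⟨β, hβ⟩⟩, rfl⟩
      rw [hφ, mem_Yd]
      refine ⟨⟨hc.1, β, fun j => ?_⟩, fun i => ?_⟩
      · change g ∣ (β * (A *ᵥ cx x) j) %ₘ g - β * (A *ᵥ cx x) j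
        rw [← dvd_neg, neg_sub]
        exact dvd_sub_modByMonic _ _
      · refine Fin.cases ?_ (fun j => ?_) i
        · exact hc.2
        · rw [parP_succ, wt4_succ]
          exact ⟨wd_modByMonic hg hgn hC.wd (Wd.mul_of_eq hβ.1 (wd_Ax hQ j) (by omega)),
            red_modByMonic hg hgn _⟩
    · intro v hv
      rw [mem_Yd] at hv
      obtain ⟨⟨hv0, β₀, hβ₀⟩, hvd⟩ := hv
      set β := β₀ %ₘ g with hβ
      have hβr : Red (2 * m + 1) β := red_modByMonic hg hgn _
      have hβP : ∀ i, g ∣ (av v - β • (A *ᵥ cx x)) i := by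
        intro i
        have h1 := hβ₀ i
        have h2 := (dvd_sub_modByMonic g β₀).mul_right ((A *ᵥ cx x) i)
        have e : (av v - β • (A *ᵥ cx x)) i = (av v - β₀ • (A *ᵥ cx x)) i +
            (β₀ - β₀ %ₘ g) * (A *ᵥ cx x) i := by
          simp only [Pi.sub_apply, Pi.smul_apply, smul_eq_mul, hβ]
          ring
        rw [e]
        exact dvd_add h1 h2
      have hva : ∀ j, Wd (d + 1) (av v j) := fun j => by
        have := (hvd j.succ).1
        rwa [wt4_succ] at this
      have hβd : Wd (d - 1) β := by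
        refine wd_beta hC hQ.symm hI hd (a := av v) (wd_dot hva hI.wd) hβr (b := 0)
          (by rw [zero_dotProduct]; exact dvd_zero _) fun i => ?_
        rw [sub_zero]
        exact hβP i
      refine ⟨(⟨v 0, hv0, (hvd 0)⟩, ⟨β, hβd, hβr⟩), ?_⟩
      rw [hφ]
      funext i
      refine Fin.cases ?_ (fun j => ?_) i
      · rfl
      · rw [parP_succ, ← (hvd j.succ).2.modByMonic hg hgn]
        refine modByMonic_eq_of_dvd hg ?_
        have h1 := hβP j
        rw [← dvd_neg] at h1
        have e : β * (A *ᵥ cx x) j - v j.succ = -(av v - β • (A *ᵥ cx x)) j := by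
          simp only [Pi.sub_apply, Pi.smul_apply, smul_eq_mul, av]
          ring
        rw [e]
        exact h1
  have h1 := (LinearEquiv.ofInjective φ hinj).finrank_eq
  have hf1 : Module.Finite k S1 := Submodule.finiteDimensional_inf_right _ _
  have hf2 : Module.Finite k S2 := finite_En _ _
  have hr1 : Module.Free k S1 := Module.Free.of_divisionRing k S1
  have hr2 : Module.Free k S2 := Module.Free.of_divisionRing k S2
  rw [hrange, Module.finrank_prod] at h1
  exact h1.symm

/-- the dimension of `X_d` is at least the sum of the dimensions of the two parts -/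
theorem finrank_add_le (n d : ℕ) :
    finrank k ↥(J.restrictScalars k ⊓ En n (d + 3) : Submodule k k[X][X]) +
      finrank k ↥(LinearMap.ker (adjMap A J) ⊓
        Submodule.pi Set.univ (fun _ : Fin 3 => En n (d + 1)) : Submodule k (Fin 3 → k[X][X])) ≤
      finrank k (Yd n d (modX A J)) := by
  set S1 : Submodule k k[X][X] := J.restrictScalars k ⊓ En n (d + 3) with hS1
  set S2 : Submodule k (Fin 3 → k[X][X]) := LinearMap.ker (adjMap A J) ⊓
        Submodule.pi Set.univ (fun _ : Fin 3 => En n (d + 1)) with hS2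
  have hf1 : Module.Finite k S1 := Submodule.finiteDimensional_inf_right _ _
  have hf2 : Module.Finite k S2 := Submodule.finiteDimensional_inf_right _ _
  have hr1 : Module.Free k S1 := Module.Free.of_divisionRing k S1
  have hr2 : Module.Free k S2 := Module.Free.of_divisionRing k S2
  let φ : (S1 × S2) →ₗ[k] Yd n d (modX A J) :=
    { toFun := fun p => ⟨Fin.cons (p.1 : k[X][X]) (p.2 : Fin 3 → k[X][X]), mem_Yd.2
        ⟨⟨p.1.2.1, fun i => (mem_ker_adjMap _).1 p.2.2.1 i⟩, fun i => by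
          refine Fin.cases ?_ (fun j => ?_) i
          · exact p.1.2.2
          · rw [wt4_succ]
            exact p.2.2.2 j (Set.mem_univ _)⟩⟩
      map_add' := by
        rintro ⟨a, b⟩ ⟨a', b'⟩
        apply Subtype.ext
        funext i
        refine Fin.cases ?_ (fun j => ?_) i
        · rfl
        · rfl
      map_smul' := by
        rintro c ⟨a, b⟩
        apply Subtype.ext
        funext i
        refine Fin.cases ?_ (fun j => ?_) i
        · rfl
        · rfl }
  have hinj : Function.Injective φ := by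
    rw [injective_iff_map_eq_zero]
    rintro ⟨⟨a, ha⟩, ⟨b, hb⟩⟩ h0
    have h1 : (Fin.cons a b : Fin 4 → k[X][X]) = 0 := congrArg Subtype.val h0
    have ha0 : a = 0 := congrFun h1 0
    have hb0 : b = 0 := funext fun j => congrFun h1 j.succ
    subst ha0 hb0
    rfl
  have h1 := LinearMap.finrank_le_finrank_of_injective hinj
  rwa [Module.finrank_prod] at h1

/-- the exact codimension of `J` -/
theorem finrank_J (hJ : Half m g f J) (hQ : Quadrics g f A) {e : ℕ} (he : 2 * m + 1 ≤ m + e)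
    (hm : 1 ≤ m) (hX : finrank k (Yd (2 * m + 1) (m - 1 + e) (modX A J)) = 4 * (2 * m + 1) * e) :
    finrank k ↥(J.restrictScalars k ⊓ En (2 * m + 1) (m - 1 + e + 3) : Submodule k k[X][X]) +
      3 * (2 * m + 1) = finrank k (En (2 * m + 1) (m - 1 + e + 3) : Submodule k k[X][X]) := by
  have h1 := finrank_En_le_J hJ (2 * m + 1) (m - 1 + e + 3)
  have h2 := finrank_En_le_adj hJ hQ (2 * m + 1) (m - 1 + e + 1)
  have h3 := finrank_add_le (k := k) (A := A) (J := J) (2 * m + 1) (m - 1 + e)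
  have h4 := two_mul_finrank_En (k := k) (n := 2 * m + 1) (d := m - 1 + e + 3) (by omega)
  have h5 := two_mul_finrank_En (k := k) (n := 2 * m + 1) (d := m - 1 + e + 1) (by omega)
  rw [hX] at h3
  obtain ⟨D, hD⟩ : ∃ D, m - 1 + e = D := ⟨_, rfl⟩
  have hD' : D + 1 = m + e := by omega
  rw [hD] at h1 h2 h3 h4 h5 ⊢
  set a := finrank k ↥(J.restrictScalars k ⊓ En (2 * m + 1) (D + 3) : Submodule k k[X][X])
  set b := finrank k (En (2 * m + 1) (D + 3) : Submodule k k[X][X])
  set c := finrank k ↥(LinearMap.ker (adjMap A J) ⊓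
        Submodule.pi Set.univ (fun _ : Fin 3 => En (2 * m + 1) (D + 1)) :
          Submodule k (Fin 3 → k[X][X]))
  set c' := finrank k (En (2 * m + 1) (D + 1) : Submodule k k[X][X])
  have h6 : b + 3 * c' = (2 * m + 1) * (4 * e + 6) := by
    have h7 : 2 * (b + 3 * c') + 4 * ((2 * m + 1) * (2 * m + 1)) =
        (2 * m + 1) * (8 * (D + 1) + 16) := by
      linear_combination h4 + 3 * h5
    rw [hD'] at h7
    nlinarith
  refine le_antisymm ?_ h1
  nlinarith

/-- the multiplier -/
noncomputable def zz (f : k[X][X]) (A : Matrix (Fin 3) (Fin 3) k[X][X]) (x : Fin 3 → k)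
    (ν : Fin 3 → k[X][X]) : k[X][X] :=
  f * (cx x ⬝ᵥ ν) * (cx x ⬝ᵥ (A *ᵥ ν))

lemma zz_ndvd (hC : Curve m g f) (hI : Iso m g A x ν dν) : ¬ g ∣ zz f A x ν := by
  intro h
  rcases hC.prime.dvd_or_dvd h with h | h
  · rcases hC.prime.dvd_or_dvd h with h | h
    · exact hC.ndvd h
    · exact InfUnit.not_dvd hC.monic (by omega) hI.inf h
  · exact InfUnit.not_dvd hC.monic (by omega) hI.inf' h

lemma zz_smul_mem (hf : f ∈ J) (hA : A.IsSymm) (hI : Iso m g A x ν dν) (v : Fin 4 → k[X][X]) :
    zz f A x ν • v ∈ (modX A J ⊓ modM g A ν) ⊔ modP g A J (cx x) := by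
  set lam := cx x ⬝ᵥ (A *ᵥ ν) with hlam
  set mu := cx x ⬝ᵥ ν with hmu
  set be := av v ⬝ᵥ ν with hbe
  set a' : Fin 3 → k[X][X] := lam • av v - be • (A *ᵥ cx x) with ha'
  set ga := cx x ⬝ᵥ crossProduct a' (A *ᵥ ν) with hga
  have ha'ν : a' ⬝ᵥ ν = 0 := by
    rw [ha', sub_dotProduct, smul_dotProduct, smul_dotProduct, dot_comm hA, smul_eq_mul,
      smul_eq_mul, ← hbe, ← hlam]
    ring
  set w : Fin 4 → k[X][X] := f • (Fin.cons ga (mu • a') : Fin 4 → k[X][X]) with hw
  have hwa : av w = (f * mu) • a' := by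
    funext j
    change f * (mu * a' j) = f * mu * a' j
    ring
  have hw0 : w 0 = f * ga := rfl
  have hwX : w ∈ modX A J := smul_mem_modX hf _
  have hwM : w ∈ modM g A ν := by
    refine ⟨?_, fun i => ?_⟩
    · rw [hwa, smul_dotProduct, ha'ν, smul_zero]
      exact dvd_zero _
    · have h1 := cross_id a' (A *ᵥ ν) (cx x) ν i
      rw [ha'ν, zero_mul, zero_sub, dot_comm hA] at h1
      have h2 : (crossProduct (av w) (A *ᵥ ν) - w 0 • ν) i =
          f * (mu * crossProduct a' (A *ᵥ ν) i - ga * ν i) := by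
        rw [hwa, hw0, map_smul, LinearMap.smul_apply]
        simp only [Pi.sub_apply, Pi.smul_apply, smul_eq_mul]
        ring
      rw [h2, h1]
      have h3 : f * -(ν ⬝ᵥ A *ᵥ ν * crossProduct (cx x) a' i) =
          (ν ⬝ᵥ A *ᵥ ν) * (-(f * crossProduct (cx x) a' i)) := by ring
      rw [h3]
      exact hI.iso.mul_right _
  have hπ : zz f A x ν • v - w ∈ modP g A J (cx x) := by
    refine ⟨?_, f * mu * be, fun i => ?_⟩
    · have h1 : (zz f A x ν • v - w) 0 = f * (mu * lam * v 0 - ga) := by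
        rw [Pi.sub_apply, hw0, Pi.smul_apply, smul_eq_mul, zz, ← hlam, ← hmu]
        ring
      rw [h1]
      exact J.mul_mem_right _ hf
    · have h1 : (av (zz f A x ν • v - w) - (f * mu * be) • (A *ᵥ cx x)) i = 0 := by
        have h2 : av (zz f A x ν • v - w) i = zz f A x ν * av v i - av w i := rfl
        rw [Pi.sub_apply, h2, hwa, ha', zz, ← hlam, ← hmu]
        simp only [Pi.sub_apply, Pi.smul_apply, smul_eq_mul]
        ring
      rw [h1]
      exact dvd_zero _
  have h3 : zz f A x ν • v = w + (zz f A x ν • v - w) := by abel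
  rw [h3]
  exact Submodule.add_mem_sup ⟨hwX, hwM⟩ hπ

/-- dimension of `(X ∩ M' + P)` is bounded below -/
theorem finrank_X_le (hC : Curve m g f) (hJ : Half m g f J) (hQ : Quadrics g f A)
    (hI : Iso m g A x ν dν) : ∃ e : ℕ, ∀ d : ℕ, finrank k (Yd (2 * m + 1) d (modX A J)) ≤
      finrank k (Yd (2 * m + 1) (d + e)
        ((modX A J ⊓ modM g A ν) ⊔ modP g A J (cx x))) := by
  have hg := hC.monic
  have hgn := hC.deg
  obtain ⟨e, he⟩ := exists_wd (zz f A x ν)
  refine ⟨e, fun d => ?_⟩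
  have hgL : ∀ v : Fin 4 → k[X][X], g • v ∈ (modX A J ⊓ modM g A ν) ⊔ modP g A J (cx x) :=
    fun v => Submodule.mem_sup_right (smul_mem_modP hJ.g_mem v)
  let φ : Yd (2 * m + 1) d (modX A J) →ₗ[k] Yd (2 * m + 1) (d + e)
        ((modX A J ⊓ modM g A ν) ⊔ modP g A J (cx x)) :=
    { toFun := fun v => ⟨redv g (zz f A x ν • (v : Fin 4 → k[X][X])), mem_Yd.2
        ⟨redv_mem hgL (zz_smul_mem hJ.f_mem hQ.symm hI _), fun i =>
          ⟨wd_modByMonic hg hgn hC.wd (Wd.mul_of_eq he ((mem_Yd.1 v.2).2 i).1 (by omega)),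
            red_modByMonic hg hgn _⟩⟩⟩
      map_add' := fun v w => by
        apply Subtype.ext
        change redv g (zz f A x ν • ((v : Fin 4 → k[X][X]) + w)) = _
        rw [smul_add, redv_add]
        rfl
      map_smul' := fun c v => by
        apply Subtype.ext
        funext i
        change (zz f A x ν * (c • (v : Fin 4 → k[X][X]) i)) %ₘ g =
          c • ((zz f A x ν * (v : Fin 4 → k[X][X]) i) %ₘ g)
        rw [mul_smul_comm]
        exact ((modByMonicHom g).restrictScalars k).map_smul c _ }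
  have hinj : Function.Injective φ := by
    rw [injective_iff_map_eq_zero]
    rintro ⟨v, hv⟩ h0
    apply Subtype.ext
    funext i
    have h1 : (zz f A x ν * v i) %ₘ g = 0 := congrFun (congrArg Subtype.val h0) i
    have h2 := (modByMonic_eq_zero_iff_dvd hg).1 h1
    have h3 := (hC.prime.dvd_or_dvd h2).resolve_left (zz_ndvd hC hI)
    exact ((mem_Yd.1 hv).2 i).2.eq_zero hg hgn h3
  exact LinearMap.finrank_le_finrank_of_injective hinj

end Vale.Agent.P287.H631.OddN
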