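import Vale.Agent.P287.H631.OddN.Basic

/-!
The reduced vectors of bounded degree of `X ∩ M' + P`.
-/

namespace Vale.Agent.P287.H631.OddN

open Polynomial Matrix Module Vale.Agent.P287.Odd Vale.Agent.P287.H684

variable {k : Type} [Field k]

lemma mem_Yd {n d : ℕ} {Y : Submodule k[X][X] (Fin 4 → k[X][X])} {v : Fin 4 → k[X][X]} :
    v ∈ Yd n d Y ↔ v ∈ Y ∧ ∀ i, Wd (d + wt4 i) (v i) ∧ Red n (v i) := by
  constructor
  · rintro ⟨h1, h2⟩
    exact ⟨h1, fun i => h2 i (Set.mem_univ i)⟩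
  · rintro ⟨h1, h2⟩
    exact ⟨h1, fun i _ => h2 i⟩

lemma Yd_mono {n d : ℕ} {Y Y' : Submodule k[X][X] (Fin 4 → k[X][X])} (h : Y ≤ Y') :
    Yd n d Y ≤ Yd n d Y' := by
  intro v hv
  rw [mem_Yd] at hv ⊢
  exact ⟨h hv.1, hv.2⟩

lemma wt4_succ (j : Fin 3) : wt4 j.succ = 1 := by fin_cases j <;> rfl

instance finite_Yd (n d : ℕ) (Y : Submodule k[X][X] (Fin 4 → k[X][X])) :
    Module.Finite k (Yd n d Y) := by
  unfold Yd
  exact Submodule.finiteDimensional_inf_right _ _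

lemma wd_dot {d e : ℕ} {a b : Fin 3 → k[X][X]} (ha : ∀ i, Wd d (a i)) (hb : ∀ i, Wd e (b i)) :
    Wd (d + e) (a ⬝ᵥ b) := by
  rw [dotProduct, Fin.sum_univ_three]
  exact Wd.add' (Wd.add' (Wd.mul' (ha 0) (hb 0)) (Wd.mul' (ha 1) (hb 1))) (Wd.mul' (ha 2) (hb 2))

lemma wd_mulVec {d e : ℕ} {A : Matrix (Fin 3) (Fin 3) k[X][X]} {b : Fin 3 → k[X][X]}
    (ha : ∀ i j, Wd d (A i j)) (hb : ∀ i, Wd e (b i)) (i : Fin 3) :
    Wd (d + e) ((A *ᵥ b) i) := wd_dot (ha i) hb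

lemma wd_cross {d e : ℕ} {a b : Fin 3 → k[X][X]} (ha : ∀ i, Wd d (a i)) (hb : ∀ i, Wd e (b i))
    (i : Fin 3) : Wd (d + e) (crossProduct a b i) := by
  rw [cross_apply]
  fin_cases i
  · exact Wd.sub' (Wd.mul' (ha 1) (hb 2)) (Wd.mul' (ha 2) (hb 1))
  · exact Wd.sub' (Wd.mul' (ha 2) (hb 0)) (Wd.mul' (ha 0) (hb 2))
  · exact Wd.sub' (Wd.mul' (ha 0) (hb 1)) (Wd.mul' (ha 1) (hb 0))

lemma wd_cx (x : Fin 3 → k) (i : Fin 3) : Wd 0 (cx x i) := wd_CC 0 (x i)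

lemma dvd_dot {R : Type} [CommRing R] {g : R} {a b : Fin 3 → R} (ha : ∀ i, g ∣ a i) :
    g ∣ a ⬝ᵥ b := Finset.dvd_sum fun i _ => (ha i).mul_right _

lemma dvd_dot' {R : Type} [CommRing R] {g : R} {a b : Fin 3 → R} (hb : ∀ i, g ∣ b i) :
    g ∣ a ⬝ᵥ b := Finset.dvd_sum fun i _ => (hb i).mul_left _

variable {m : ℕ} {g f : k[X][X]} {A : Matrix (Fin 3) (Fin 3) k[X][X]} {J : Ideal k[X][X]}
  {x : Fin 3 → k} {ν : Fin 3 → k[X][X]} {dν : ℕ}

/-- the degree of the coefficient `β` -/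
lemma wd_beta (hC : Curve m g f) (hA : A.IsSymm) (hI : Iso m g A x ν dν)
    {d : ℕ} (hd : 1 ≤ d) {a : Fin 3 → k[X][X]} (ha : Wd (d + 1 + dν) (a ⬝ᵥ ν)) {β : k[X][X]}
    (hβ : Red (2 * m + 1) β) {b : Fin 3 → k[X][X]} (hb : g ∣ b ⬝ᵥ ν)
    (h : ∀ i, g ∣ (a - b - β • (A *ᵥ cx x)) i) : Wd (d - 1) β := by
  refine InfUnit.wd_of hC.monic hC.deg hC.wd hI.inf' hβ (P := a ⬝ᵥ ν) ?_ ?_
  · exact Wd.mono' ha (by omega)
  · have h1 : g ∣ (a - b - β • (A *ᵥ cx x)) ⬝ᵥ ν := dvd_dot h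
    rw [sub_dotProduct, sub_dotProduct, smul_dotProduct, dot_comm hA, smul_eq_mul] at h1
    have h2 := (dvd_neg.2 (h1.add hb))
    have e : cx x ⬝ᵥ (A *ᵥ ν) * β - a ⬝ᵥ ν =
        -(a ⬝ᵥ ν - b ⬝ᵥ ν - β * (cx x ⬝ᵥ (A *ᵥ ν)) + b ⬝ᵥ ν) := by ring
    rw [e]
    exact h2

theorem decomp (hC : Curve m g f) (hJ : Half m g f J) (hQ : Quadrics g f A)
    (hI : Iso m g A x ν dν) {d : ℕ} (hd : 1 ≤ d) {v : Fin 4 → k[X][X]}
    (hv : v ∈ Yd (2 * m + 1) d ((modX A J ⊓ modM g A ν) ⊔ modP g A J (cx x))) :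
    ∃ w ∈ Yd (2 * m + 1) d (modX A J ⊓ modM g A ν), ∃ π ∈ Yd (2 * m + 1) d (modP g A J (cx x)),
      v = w + π := by
  rw [mem_Yd] at hv
  obtain ⟨hv, hvd⟩ := hv
  obtain ⟨w₀, hw₀, π₀, hπ₀, rfl⟩ := Submodule.mem_sup.1 hv
  have hg := hC.monic
  have hgn := hC.deg
  set w := redv g w₀ with hw
  set π := redv g π₀ with hπ
  have hwX : w ∈ modX A J := redv_mem (fun v => smul_mem_modX hJ.g_mem v) hw₀.1
  have hwM : w ∈ modM g A ν := redv_mem (fun v => smul_mem_modM v) hw₀.2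
  have hπP : π ∈ modP g A J (cx x) := redv_mem (fun v => smul_mem_modP hJ.g_mem v) hπ₀
  have hwr : ∀ i, Red (2 * m + 1) (w i) := fun i => red_modByMonic hg hgn _
  have hπr : ∀ i, Red (2 * m + 1) (π i) := fun i => red_modByMonic hg hgn _
  set v := w₀ + π₀ with hvdef
  have hvr : redv g v = v := funext fun i => (hvd i).2.modByMonic hg hgn
  have hsum : v = w + π := by
    rw [← hvr, hvdef, redv_add]
  obtain ⟨hπ0, β₀, hβ₀⟩ := hπP
  set β := β₀ %ₘ g with hβ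
  have hβr : Red (2 * m + 1) β := red_modByMonic hg hgn _
  have hβP : ∀ i, g ∣ (av π - β • (A *ᵥ cx x)) i := by
    intro i
    have h1 := hβ₀ i
    have h2 := (dvd_sub_modByMonic g β₀).mul_right ((A *ᵥ cx x) i)
    have e : (av π - β • (A *ᵥ cx x)) i = (av π - β₀ • (A *ᵥ cx x)) i +
        (β₀ - β₀ %ₘ g) * (A *ᵥ cx x) i := by
      simp only [Pi.sub_apply, Pi.smul_apply, smul_eq_mul, hβ]
      ring
    rw [e]
    exact dvd_add h1 h2
  have hva : ∀ j, Wd (d + 1) (av v j) := fun j => by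
    have := (hvd j.succ).1
    rwa [wt4_succ] at this
  have hv0 : Wd (d + 3) (v 0) := (hvd 0).1
  have hβd : Wd (d - 1) β := by
    refine wd_beta hC hQ.symm hI hd (a := av v) (wd_dot hva hI.wd) hβr (b := av w) hwM.1
      fun i => ?_
    have e : av v - av w = av π := by
      rw [hsum, av_add]
      abel
    rw [e]
    exact hβP i
  have hAx : ∀ i, Wd 2 ((A *ᵥ cx x) i) := fun i => by
    have := wd_mulVec hQ.wd (wd_cx x) i
    exact this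
  have hπa : ∀ j, Wd (d + 1) (av π j) := by
    intro j
    have h1 : π j.succ = (β * (A *ᵥ cx x) j) %ₘ g := by
      rw [← (hπr j.succ).modByMonic hg hgn]
      refine modByMonic_eq_of_dvd hg ?_
      exact hβP j
    change Wd (d + 1) (π j.succ)
    rw [h1]
    exact wd_modByMonic hg hgn hC.wd (Wd.mul_of_eq hβd (hAx j) (by omega))
  have hwa : ∀ j, Wd (d + 1) (av w j) := by
    intro j
    have e : av w j = av v j - av π j := by
      rw [hsum, av_add, Pi.add_apply]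
      ring
    rw [e]
    exact Wd.sub' (hva j) (hπa j)
  have hl : ∀ i, Wd (2 + dν) ((A *ᵥ ν) i) := wd_mulVec hQ.wd hI.wd
  have hw0 : Wd (d + 3) (w 0) := by
    refine InfUnit.wd_of hg hgn hC.wd hI.inf (hwr 0)
      (P := cx x ⬝ᵥ crossProduct (av w) (A *ᵥ ν)) ?_ ?_
    · have := wd_dot (wd_cx x) (wd_cross hwa hl)
      exact Wd.mono' this (by omega)
    · have h1 : g ∣ cx x ⬝ᵥ (crossProduct (av w) (A *ᵥ ν) - w 0 • ν) := dvd_dot' hwM.2
      rw [dotProduct_sub, dotProduct_smul, smul_eq_mul] at h1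
      have h2 := dvd_neg.2 h1
      have e : cx x ⬝ᵥ ν * w 0 - cx x ⬝ᵥ crossProduct (av w) (A *ᵥ ν) =
          -(cx x ⬝ᵥ crossProduct (av w) (A *ᵥ ν) - w 0 * (cx x ⬝ᵥ ν)) := by ring
      rw [e]
      exact h2
  have hπ0d : Wd (d + 3) (π 0) := by
    have e : π 0 = v 0 - w 0 := by
      rw [hsum, Pi.add_apply]
      ring
    rw [e]
    exact Wd.sub' hv0 hw0
  refine ⟨w, mem_Yd.2 ⟨⟨hwX, hwM⟩, fun i => ⟨?_, hwr i⟩⟩, π,
    mem_Yd.2 ⟨⟨hπ0, β₀, hβ₀⟩, fun i => ⟨?_, hπr i⟩⟩, hsum⟩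
  · refine Fin.cases ?_ (fun j => ?_) i
    · exact hw0
    · rw [wt4_succ]
      exact hwa j
  · refine Fin.cases ?_ (fun j => ?_) i
    · exact hπ0d
    · rw [wt4_succ]
      exact hπa j

/-- the two parts are independent -/
lemma inter_eq (hC : Curve m g f) (hA : A.IsSymm) (hI : Iso m g A x ν dν) {n d : ℕ}
    (hn : n = 2 * m + 1) {v : Fin 4 → k[X][X]} (h1 : v ∈ Yd n d (modX A J ⊓ modM g A ν))
    (h2 : v ∈ Yd n d (modP g A J (cx x))) : v = 0 := by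
  subst hn
  rw [mem_Yd] at h1 h2
  obtain ⟨⟨-, hM⟩, hr⟩ := h1
  obtain ⟨⟨-, β, hβ⟩, -⟩ := h2
  have hnd := InfUnit.not_dvd hC.monic (by omega) hI.inf'
  have hnd' := InfUnit.not_dvd hC.monic (by omega) hI.inf
  have hβg : g ∣ β := by
    have h3 : g ∣ (av v - β • (A *ᵥ cx x)) ⬝ᵥ ν := dvd_dot hβ
    rw [sub_dotProduct, smul_dotProduct, dot_comm hA, smul_eq_mul] at h3
    have h4 : g ∣ β * (cx x ⬝ᵥ (A *ᵥ ν)) := by
      have := dvd_sub hM.1 h3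
      have e : av v ⬝ᵥ ν - (av v ⬝ᵥ ν - β * (cx x ⬝ᵥ (A *ᵥ ν))) = β * (cx x ⬝ᵥ (A *ᵥ ν)) := by
        ring
      rwa [e] at this
    exact (hC.prime.dvd_or_dvd h4).resolve_right hnd
  have ha : ∀ j, g ∣ av v j := by
    intro j
    have h3 := dvd_add (hβ j) (hβg.mul_right ((A *ᵥ cx x) j))
    have e : (av v - β • (A *ᵥ cx x)) j + β * (A *ᵥ cx x) j = av v j := by
      simp only [Pi.sub_apply, Pi.smul_apply, smul_eq_mul]
      ring
    rwa [e] at h3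
  have ha0 : ∀ j, av v j = 0 := fun j => (hr j.succ).2.eq_zero hC.monic hC.deg (ha j)
  have hav : av v = 0 := funext ha0
  have h0 : g ∣ v 0 := by
    have h3 : g ∣ cx x ⬝ᵥ (crossProduct (av v) (A *ᵥ ν) - v 0 • ν) := dvd_dot' hM.2
    rw [hav, map_zero, LinearMap.zero_apply, zero_sub, dotProduct_neg, dotProduct_smul,
      smul_eq_mul] at h3
    exact (hC.prime.dvd_or_dvd ((dvd_neg (α := k[X][X])).1 h3)).resolve_right hnd'
  have h00 : v 0 = 0 := (hr 0).2.eq_zero hC.monic hC.deg h0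
  funext i
  refine Fin.cases ?_ (fun j => ?_) i
  · exact h00
  · exact ha0 j

/-- `dim (X ∩ M' + P)_d = dim (X ∩ M')_d + dim P_d` -/
theorem finrank_sup (hC : Curve m g f) (hJ : Half m g f J) (hQ : Quadrics g f A)
    (hI : Iso m g A x ν dν) {d : ℕ} (hd : 1 ≤ d) :
    finrank k (Yd (2 * m + 1) d ((modX A J ⊓ modM g A ν) ⊔ modP g A J (cx x))) =
      finrank k (Yd (2 * m + 1) d (modX A J ⊓ modM g A ν)) +
      finrank k (Yd (2 * m + 1) d (modP g A J (cx x))) := by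
  have h1 : Yd (2 * m + 1) d ((modX A J ⊓ modM g A ν) ⊔ modP g A J (cx x)) =
      Yd (2 * m + 1) d (modX A J ⊓ modM g A ν) ⊔ Yd (2 * m + 1) d (modP g A J (cx x)) := by
    apply le_antisymm
    · intro v hv
      obtain ⟨w, hw, π, hπ, rfl⟩ := decomp hC hJ hQ hI hd hv
      exact Submodule.add_mem_sup hw hπ
    · exact sup_le (Yd_mono le_sup_left) (Yd_mono le_sup_right)
  have h2 : Yd (2 * m + 1) d (modX A J ⊓ modM g A ν) ⊓ Yd (2 * m + 1) d (modP g A J (cx x)) =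
      ⊥ := by
    rw [eq_bot_iff]
    intro v hv
    rw [Submodule.mem_bot]
    exact inter_eq hC hQ.symm hI rfl hv.1 hv.2
  have h3 := Submodule.finrank_sup_add_finrank_inf_eq (Yd (2 * m + 1) d (modX A J ⊓ modM g A ν))
    (Yd (2 * m + 1) d (modP g A J (cx x)))
  rw [← h1, h2, finrank_bot, add_zero] at h3
  exact h3

end Vale.Agent.P287.H631.OddN
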